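import Vale.Agent.P088.R2.H354.Apx

/-!
# P088, stage 3: the far bound (S10)
-/

open MeasureTheory Set
open scoped ContDiff Matrix Topology

noncomputable section

namespace Vale.Agent.P088.R2.H960.S10

open Vale.Agent.P088.LR Vale.Agent.P088.HY Vale.Agent.P088.HY.T3

variable {n : ℕ}

/-- The pointwise bound of a doubly harmonic function. -/
theorem s10 {O : Set (V n)} (hO : IsOpen O) {s₁ s₂ : MF n} {r C w₀ M : ℝ} (hr : 0 < r)
    (hC : 0 ≤ C) (hM : 0 ≤ M) (h₁ : IntE s₁ O r C) (h₂ : IntE s₂ O r C) {K W : VV n → ℝ}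
    (hK : ContDiffOn ℝ ∞ K (O ×ˢ O)) {x y : V n} (hx : Metric.ball x r ⊆ O)
    (hy : Metric.ball y r ⊆ O)
    (hL₁ : ∀ z ∈ Metric.ball x r ×ˢ Metric.ball y r, Lx s₁ K z = 0)
    (hL₂ : ∀ z ∈ Metric.ball x r ×ˢ Metric.ball y r, Ly s₂ K z = 0)
    (hW : ∀ z ∈ Metric.ball x r ×ˢ Metric.ball y r, W z ≤ w₀)
    (hi : IntegrableOn (fun z => K z ^ 2 * Real.exp (-(2 * W z))) (O ×ˢ O))
    (hI : ∫ z in O ×ˢ O, K z ^ 2 * Real.exp (-(2 * W z)) ≤ M ^ 2) :
    |K (x, y)| ≤ C ^ 2 * Real.exp w₀ * M := by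
  set A := Metric.ball x r with hA
  set B := Metric.ball y r with hB
  have hAO : IsOpen A := Metric.isOpen_ball
  have hBO : IsOpen B := Metric.isOpen_ball
  have hAB : A ×ˢ B ⊆ O ×ˢ O := prod_mono hx hy
  have hm : MeasurableSet (A ×ˢ B) := hAO.measurableSet.prod hBO.measurableSet
  have hKc : ContinuousOn K (A ×ˢ B) := hK.continuousOn.mono hAB
  -- the square is integrable
  have hpt : ∀ z ∈ A ×ˢ B, K z ^ 2 ≤ Real.exp (2 * w₀) *
      (K z ^ 2 * Real.exp (-(2 * W z))) := by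
    intro z hz
    have h1 := hW z hz
    have h2 : 1 ≤ Real.exp (2 * w₀) * Real.exp (-(2 * W z)) := by
      rw [← Real.exp_add]
      exact Real.one_le_exp (by linarith)
    calc K z ^ 2 = K z ^ 2 * 1 := (mul_one _).symm
      _ ≤ K z ^ 2 * (Real.exp (2 * w₀) * Real.exp (-(2 * W z))) :=
          mul_le_mul_of_nonneg_left h2 (sq_nonneg _)
      _ = _ := by ring
  have hiAB := hi.mono_set hAB
  have hK2 : IntegrableOn (fun z => K z ^ 2) (A ×ˢ B) := by
    refine Integrable.mono' (hiAB.const_mul (Real.exp (2 * w₀))) ?_ ?_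
    · exact (hKc.pow 2).aestronglyMeasurable hm
    · refine (ae_restrict_iff' hm).2 (ae_of_all _ fun z hz => ?_)
      rw [Real.norm_of_nonneg (sq_nonneg _)]
      exact hpt z hz
  have hI2 : ∫ z in A ×ˢ B, K z ^ 2 ≤ Real.exp (2 * w₀) * M ^ 2 := by
    calc ∫ z in A ×ˢ B, K z ^ 2 ≤ ∫ z in A ×ˢ B, Real.exp (2 * w₀) *
          (K z ^ 2 * Real.exp (-(2 * W z))) :=
          setIntegral_mono_on hK2 (hiAB.const_mul _) hm hpt
      _ = Real.exp (2 * w₀) * ∫ z in A ×ˢ B, K z ^ 2 * Real.exp (-(2 * W z)) :=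
          integral_const_mul _ _
      _ ≤ Real.exp (2 * w₀) * M ^ 2 := by
          refine mul_le_mul_of_nonneg_left (le_trans ?_ hI) (Real.exp_pos _).le
          exact setIntegral_mono_set hi (ae_of_all _ fun z => by positivity) hAB.eventuallyLE
  -- Fubini
  have hvol : (volume : Measure (VV n)).restrict (A ×ˢ B) =
      ((volume : Measure (V n)).restrict A).prod ((volume : Measure (V n)).restrict B) :=
    (Measure.prod_restrict A B).symm
  have hK2' : Integrable (fun z => K z ^ 2)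
      (((volume : Measure (V n)).restrict A).prod ((volume : Measure (V n)).restrict B)) := by
    rw [← hvol]; exact hK2
  have hae : ∀ᵐ y' ∂((volume : Measure (V n)).restrict B),
      Integrable (fun x' => K (x', y') ^ 2) ((volume : Measure (V n)).restrict A) :=
    hK2'.prod_left_ae
  have hsl : ∀ y' ∈ B, ContDiffOn ℝ ∞ (fun x' => K (x', y')) A := fun y' hy' =>
    (slx hK (hy hy')).mono hx
  have hcx : x ∈ A := Metric.mem_ball_self hr
  have hcy : y ∈ B := Metric.mem_ball_self hr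
  -- first variable
  have e1 : ∀ᵐ y' ∂((volume : Measure (V n)).restrict B),
      K (x, y') ^ 2 ≤ C ^ 2 * ∫ x' in A, K (x', y') ^ 2 := by
    filter_upwards [hae, ae_restrict_mem hBO.measurableSet] with y' hi' hy'
    have hLs : ∀ x' ∈ A, Lv s₁ (fun x' => K (x', y')) x' = 0 := by
      intro x' hx'
      rw [Lv_slx hO hK s₁ (hx hx') (hy hy')]
      exact hL₁ _ ⟨hx', hy'⟩
    have h3 := h₁ x hx (fun x' => K (x', y')) (hsl y' hy') hLs hi' none
    have h4 : |K (x, y')| ≤ C * √(∫ x' in A, K (x', y') ^ 2) := h3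
    calc K (x, y') ^ 2 = |K (x, y')| ^ 2 := (sq_abs _).symm
      _ ≤ (C * √(∫ x' in A, K (x', y') ^ 2)) ^ 2 := pow_le_pow_left₀ (abs_nonneg _) h4 2
      _ = _ := by
          rw [mul_pow, Real.sq_sqrt (integral_nonneg fun _ => sq_nonneg _)]
  have hci : Integrable (fun y' => ∫ x' in A, K (x', y') ^ 2)
      ((volume : Measure (V n)).restrict B) := hK2'.integral_prod_right
  have hsly : ContDiffOn ℝ ∞ (fun y' => K (x, y')) B := (sly hK (hx hcx)).mono hy
  have hvi : IntegrableOn (fun y' => K (x, y') ^ 2) B := by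
    refine Integrable.mono' (hci.const_mul (C ^ 2)) ?_ ?_
    · exact (hsly.continuousOn.pow 2).aestronglyMeasurable hBO.measurableSet
    · filter_upwards [e1] with y' h
      rw [Real.norm_of_nonneg (sq_nonneg _)]
      exact h
  have hv : ∫ y' in B, K (x, y') ^ 2 ≤ C ^ 2 * (Real.exp (2 * w₀) * M ^ 2) := by
    calc ∫ y' in B, K (x, y') ^ 2 ≤ ∫ y' in B, C ^ 2 * ∫ x' in A, K (x', y') ^ 2 :=
          integral_mono_ae hvi (hci.const_mul _) e1
      _ = C ^ 2 * ∫ y' in B, ∫ x' in A, K (x', y') ^ 2 := integral_const_mul _ _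
      _ = C ^ 2 * ∫ z in A ×ˢ B, K z ^ 2 := by
          rw [hvol, integral_prod_symm _ hK2']
      _ ≤ _ := mul_le_mul_of_nonneg_left hI2 (sq_nonneg _)
  -- second variable
  have hLs : ∀ y' ∈ B, Lv s₂ (fun y' => K (x, y')) y' = 0 := by
    intro y' hy'
    rw [Lv_sly hO hK s₂ (hx hcx) (hy hy')]
    exact hL₂ _ ⟨hcx, hy'⟩
  have h5 : |K (x, y)| ≤ C * √(∫ y' in B, K (x, y') ^ 2) :=
    h₂ y hy (fun y' => K (x, y')) hsly hLs hvi none
  refine h5.trans ?_
  have h6 : √(∫ y' in B, K (x, y') ^ 2) ≤ C * Real.exp w₀ * M := by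
    rw [Real.sqrt_le_left (by positivity)]
    refine hv.trans (le_of_eq ?_)
    have : Real.exp (2 * w₀) = Real.exp w₀ ^ 2 := by
      rw [← Real.exp_nat_mul]; norm_num
    rw [this]; ring
  calc C * √(∫ y' in B, K (x, y') ^ 2) ≤ C * (C * Real.exp w₀ * M) :=
        mul_le_mul_of_nonneg_left h6 hC
    _ = _ := by ring

end Vale.Agent.P088.R2.H960.S10
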