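import Vale.Agent.P088.R2.H16.Calc
import Vale.Agent.P088.R2.H354.Cal

/-!
# P088, stage 3: the operators commute (S13), local coefficients
-/

open MeasureTheory Set
open scoped ContDiff Matrix Topology

noncomputable section

namespace Vale.Agent.P088.R2.H960.S13

open Vale.Agent.P088.LR Vale.Agent.P088.HY Vale.Agent.P088.HY.H16

variable {n : ℕ}

/-- A matrix field, smooth near a compact set, is changed to a smooth one. -/
theorem ex_mod {O κ : Set (V n)} (hO : IsOpen O) (hκ : IsCompact κ) (hκO : κ ⊆ O) {s : MF n}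
    (hs : ∀ i j, ContDiffOn ℝ ∞ (fun x => s x i j) O) :
    ∃ s' : MF n, SmM s' ∧ ∀ x ∈ κ, ∀ i j, s' x i j = s x i j := by
  obtain ⟨χ, h1, h2, h3, h4⟩ := T3.exists_cut hO hκ hκO
  refine ⟨fun x => Matrix.of fun i j => χ x * s x i j, fun i j => ?_, fun x hx i j => ?_⟩
  · simp only [Matrix.of_apply]
    rw [contDiff_iff_contDiffAt]
    intro x
    by_cases hx : x ∈ O
    · exact h1.contDiffAt.mul ((hs i j).contDiffAt (hO.mem_nhds hx))
    · have hx' : x ∉ tsupport χ := fun h => hx (h3 h)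
      have h5 : (fun x => χ x * s x i j) =ᶠ[𝓝 x] fun _ => 0 := by
        filter_upwards [(isClosed_tsupport χ).isOpen_compl.mem_nhds hx'] with y hy
        rw [image_eq_zero_of_notMem_tsupport hy, zero_mul]
      exact contDiffAt_const.congr_of_eventuallyEq h5
  · simp only [Matrix.of_apply]
    rw [h4 x hx, one_mul]

/-- Derivatives vanish off the support. -/
theorem dd_off (v : VV n) {f : VV n → ℝ} {S : Set (VV n)} (hS : IsClosed S)
    (hf : ∀ z ∉ S, f z = 0) : ∀ z ∉ S, dd v f z = 0 := by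
  intro z hz
  have h : f =ᶠ[𝓝 z] fun _ => 0 := by
    filter_upwards [hS.isOpen_compl.mem_nhds hz] with w hw using hf w hw
  unfold dd
  rw [h.fderiv_eq]
  simp

theorem Lx_off (s : MF n) {f : VV n → ℝ} {S : Set (VV n)} (hS : IsClosed S)
    (hf : ∀ z ∉ S, f z = 0) : ∀ z ∉ S, Lx s f z = 0 := by
  intro z hz
  unfold Lx
  simp only [dx_eq]
  exact Finset.sum_eq_zero fun i _ => Finset.sum_eq_zero fun j _ => by
    rw [dd_off (ex i) hS (dd_off (ex j) hS hf) z hz, mul_zero]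

theorem Ly_off (s : MF n) {f : VV n → ℝ} {S : Set (VV n)} (hS : IsClosed S)
    (hf : ∀ z ∉ S, f z = 0) : ∀ z ∉ S, Ly s f z = 0 := by
  intro z hz
  unfold Ly
  simp only [dy_eq]
  exact Finset.sum_eq_zero fun i _ => Finset.sum_eq_zero fun j _ => by
    rw [dd_off (ey i) hS (dd_off (ey j) hS hf) z hz, mul_zero]

theorem Lx_mod {s s' : MF n} {f : VV n → ℝ} {S : Set (VV n)} (hS : IsClosed S)
    (hf : ∀ z ∉ S, f z = 0) (h : ∀ z ∈ S, ∀ i j, s' z.1 i j = s z.1 i j) : Lx s' f = Lx s f := by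
  funext z
  by_cases hz : z ∈ S
  · unfold Lx
    exact Finset.sum_congr rfl fun i _ => Finset.sum_congr rfl fun j _ => by rw [h z hz]
  · rw [Lx_off s' hS hf z hz, Lx_off s hS hf z hz]

theorem Ly_mod {s s' : MF n} {f : VV n → ℝ} {S : Set (VV n)} (hS : IsClosed S)
    (hf : ∀ z ∉ S, f z = 0) (h : ∀ z ∈ S, ∀ i j, s' z.2 i j = s z.2 i j) : Ly s' f = Ly s f := by
  funext z
  by_cases hz : z ∈ S
  · unfold Ly
    exact Finset.sum_congr rfl fun i _ => Finset.sum_congr rfl fun j _ => by rw [h z hz]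
  · rw [Ly_off s' hS hf z hz, Ly_off s hS hf z hz]

/-- The operators on compactly supported functions, with coefficients smooth near the support. -/
theorem s13 {O : Set (V n)} (hO : IsOpen O) {s₁ s₂ : MF n}
    (h₁ : ∀ i j, ContDiffOn ℝ ∞ (fun x => s₁ x i j) O)
    (h₂ : ∀ i j, ContDiffOn ℝ ∞ (fun x => s₂ x i j) O) {K : VV n → ℝ} (hK : ContDiff ℝ ∞ K)
    (hc : HasCompactSupport K) (hKO : tsupport K ⊆ O ×ˢ O) :
    (∀ z, Ly s₂ (Lx s₁ K) z = Lx s₁ (Ly s₂ K) z) ∧
    (ContDiff ℝ ∞ (Lx s₁ K) ∧ HasCompactSupport (Lx s₁ K) ∧ tsupport (Lx s₁ K) ⊆ tsupport K) ∧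
    (ContDiff ℝ ∞ (Ly s₂ K) ∧ HasCompactSupport (Ly s₂ K) ∧ tsupport (Ly s₂ K) ⊆ tsupport K) := by
  have hcc : IsCompact (tsupport K) := hc
  set κ : Set (V n) := Prod.fst '' tsupport K ∪ Prod.snd '' tsupport K with hκ
  have hκc : IsCompact κ := (hcc.image continuous_fst).union (hcc.image continuous_snd)
  have hκO : κ ⊆ O := by
    rintro x (⟨z, hz, rfl⟩ | ⟨z, hz, rfl⟩)
    · exact (hKO hz).1
    · exact (hKO hz).2
  obtain ⟨t₁, ht₁, e₁⟩ := ex_mod hO hκc hκO h₁
  obtain ⟨t₂, ht₂, e₂⟩ := ex_mod hO hκc hκO h₂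
  have hS : IsClosed (tsupport K) := isClosed_tsupport K
  have h0 : ∀ z ∉ tsupport K, K z = 0 := fun z hz => image_eq_zero_of_notMem_tsupport hz
  have m1 : ∀ z ∈ tsupport K, ∀ i j, t₁ z.1 i j = s₁ z.1 i j := fun z hz i j =>
    e₁ _ (Or.inl ⟨z, hz, rfl⟩) i j
  have m2 : ∀ z ∈ tsupport K, ∀ i j, t₂ z.2 i j = s₂ z.2 i j := fun z hz i j =>
    e₂ _ (Or.inr ⟨z, hz, rfl⟩) i j
  have a1 := Lx_mod hS h0 m1
  have a2 := Ly_mod hS h0 m2
  have b1 := Ly_mod (f := Lx s₁ K) hS (Lx_off s₁ hS h0) m2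
  have b2 := Lx_mod (f := Ly s₂ K) hS (Ly_off s₂ hS h0) m1
  have c1 : ContDiff ℝ ∞ (Lx t₁ K) :=
    contDiffOn_univ.1 (contDiffOn_Lx isOpen_univ ht₁ hK.contDiffOn)
  have c2 : ContDiff ℝ ∞ (Ly t₂ K) :=
    contDiffOn_univ.1 (contDiffOn_Ly isOpen_univ ht₂ hK.contDiffOn)
  refine ⟨fun z => ?_, ⟨?_, ?_, ?_⟩, ⟨?_, ?_, ?_⟩⟩
  · have := Ly_Lx isOpen_univ ht₁ ht₂ hK.contDiffOn z (mem_univ z)
    rw [a1, a2, b1, b2] at this
    exact this
  · rw [← a1]; exact c1
  · exact HasCompactSupport.intro hcc (Lx_off s₁ hS h0)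
  · refine closure_minimal (fun z hz => ?_) hS
    by_contra h
    exact hz (Lx_off s₁ hS h0 z h)
  · rw [← a2]; exact c2
  · exact HasCompactSupport.intro hcc (Ly_off s₂ hS h0)
  · refine closure_minimal (fun z hz => ?_) hS
    by_contra h
    exact hz (Ly_off s₂ hS h0 z h)

/-- Integrability of a compactly supported function times a function which is continuous near the
support. -/
theorem int_mul {F g : VV n → ℝ} {U : Set (VV n)} (hF : Continuous F) (hc : HasCompactSupport F)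
    (hFU : tsupport F ⊆ U) (hg : ContinuousOn g U) : Integrable (fun z => F z ^ 2 * g z) := by
  have hcc : IsCompact (tsupport F) := hc
  have h1 : ContinuousOn (fun z => F z ^ 2 * g z) (tsupport F) :=
    (hF.continuousOn.pow 2).mul (hg.mono hFU)
  have h2 : IntegrableOn (fun z => F z ^ 2 * g z) (tsupport F) := h1.integrableOn_compact hcc
  refine (integrableOn_iff_integrable_of_support_subset ?_).1 h2
  intro z hz
  by_contra h
  apply hz
  simp only [image_eq_zero_of_notMem_tsupport h]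
  ring

/-- `F² e^{-2W} / w`. -/
theorem int_F {F W w : VV n → ℝ} {U : Set (VV n)} (hF : Continuous F) (hc : HasCompactSupport F)
    (hFU : tsupport F ⊆ U) (hW : ContinuousOn W U) (hw : ContinuousOn w U)
    (hw0 : ∀ z ∈ U, 0 < w z) : Integrable (fun z => F z ^ 2 * Real.exp (-(2 * W z)) / w z) := by
  have h := int_mul hF hc hFU (g := fun z => Real.exp (-(2 * W z)) / w z)
    ((Real.continuous_exp.comp_continuousOn (continuousOn_const.mul hW).neg).div hw
      fun z hz => (hw0 z hz).ne')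
  refine h.congr (ae_of_all _ fun z => ?_)
  simp only
  ring

end Vale.Agent.P088.R2.H960.S13
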